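import Mathlib

/-! P254 stage 3, block N2 (static inequality), pointwise tensor inequality `N2 ≥ N1` (helper47).
`τ` positive definite, `T c a b = ∂_c τ_ab`, symmetric in `a b`, `Σ_e τ_ae T_ebc` symmetric in `a b`. -/

open Matrix Finset
open scoped MatrixOrder

namespace Vale.Agent.P254.St47

variable {n : ℕ}

theorem pointwise {τ : Matrix (Fin n) (Fin n) ℝ} (hτ : τ.PosDef) (T : Fin n → Matrix (Fin n) (Fin n) ℝ)
    (hs : ∀ c a b, T c a b = T c b a)
    (hSY : ∀ a b c, ∑ e, τ a e * T e b c = ∑ e, τ b e * T e a c) (w : Fin n → ℝ) :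
    ∑ i, ∑ j, w i * w j * (∑ a, ∑ b, τ a b * T a i j * T b i j) ≤
      ∑ a, ∑ i, w a * w i * τ a i * (∑ b, ∑ c, T c a b * T b i c) := by
  obtain ⟨B, hB⟩ := CStarAlgebra.nonneg_iff_eq_star_mul_self.1 hτ.posSemidef.nonneg
  rw [Matrix.star_eq_conjTranspose] at hB
  have hτB : ∀ a b, τ a b = ∑ m, B m a * B m b := by
    intro a b; rw [hB, Matrix.mul_apply]; simp
  have hdet : IsUnit B.det := by
    have h1 : τ.det ≠ 0 := hτ.det_pos.ne'
    rw [hB, Matrix.det_mul] at h1
    exact isUnit_iff_ne_zero.2 (right_ne_zero_of_mul h1)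
  set A : Matrix (Fin n) (Fin n) ℝ := B⁻¹ with hA
  have hBA : B * A = 1 := Matrix.mul_nonsing_inv B hdet
  have hAB : A * B = 1 := Matrix.nonsing_inv_mul B hdet
  -- M_p = Σ_f B p f T_f
  set M : Fin n → Matrix (Fin n) (Fin n) ℝ := fun p a b => ∑ f, B p f * T f a b with hM
  have hTM : ∀ c a b, T c a b = ∑ p, A c p * M p a b := by
    intro c a b
    simp only [hM, Finset.mul_sum]
    rw [Finset.sum_comm]
    have : ∀ f, ∑ p, A c p * (B p f * T f a b) = (A * B) c f * T f a b := by
      intro f; rw [Matrix.mul_apply, Finset.sum_mul]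
      exact Finset.sum_congr rfl fun p _ => by ring
    simp_rw [this, hAB, Matrix.one_apply]
    simp
  set Q : Fin n → Matrix (Fin n) (Fin n) ℝ := fun p => M p * A with hQ
  -- total symmetry
  set Φ : Fin n → Fin n → Fin n → ℝ := fun a b c => ∑ e, τ a e * T e b c with hΦ
  have hΦ1 : ∀ a b c, Φ a b c = Φ b a c := hSY
  have hΦ2 : ∀ a b c, Φ a b c = Φ a c b := by
    intro a b c; simp only [hΦ]; exact Finset.sum_congr rfl fun e _ => by rw [hs]
  have hΦ3 : ∀ h a b, Φ h a b = Φ b a h := by
    intro h a b; rw [hΦ2, hΦ1, hΦ2]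
  have hMΦ : ∀ p a b, M p a b = ∑ h, A h p * Φ h a b := by
    intro p a b
    simp only [hM, hΦ, Finset.mul_sum]
    rw [Finset.sum_comm]
    refine Finset.sum_congr rfl fun f _ => ?_
    have h1 : ∑ h, A h p * (τ h f * T f a b) = (∑ h, A h p * τ h f) * T f a b := by
      rw [Finset.sum_mul]; exact Finset.sum_congr rfl fun h _ => by ring
    have h2 : ∑ h, A h p * τ h f = B p f := by
      have h3 : ∀ h, A h p * τ h f = ∑ m, (B m h * A h p) * B m f := by
        intro h; rw [hτB, Finset.mul_sum]; exact Finset.sum_congr rfl fun m _ => by ring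
      simp_rw [h3]
      rw [Finset.sum_comm]
      simp_rw [← Finset.sum_mul]
      have h4 : ∀ m, ∑ h, B m h * A h p = (B * A) m p := fun m => (Matrix.mul_apply).symm
      simp_rw [h4, hBA, Matrix.one_apply]
      simp
    rw [h1, h2]
  have hQs : ∀ p a q, Q p a q = Q q a p := by
    intro p a q
    simp only [hQ, Matrix.mul_apply, hMΦ, Finset.sum_mul]
    rw [Finset.sum_comm]
    refine Finset.sum_congr rfl fun h _ => Finset.sum_congr rfl fun b _ => ?_
    rw [hΦ3 h a b]; ring
  -- X_p
  set W : Matrix (Fin n) (Fin n) ℝ := Matrix.diagonal w with hW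
  set X : Fin n → Matrix (Fin n) (Fin n) ℝ := fun p => B * W * M p * A with hX
  have hN1 : ∑ i, ∑ j, w i * w j * (∑ a, ∑ b, τ a b * T a i j * T b i j) = ∑ p, (X p * X p).trace := by
    have h1 : ∀ p, (X p * X p).trace = ∑ i, ∑ j, w i * w j * (M p i j) ^ 2 := by
      intro p
      have h2 : (X p * X p).trace = (W * M p * (W * M p)).trace := by
        have h3 : X p * X p = B * (W * M p * (W * M p) * A) := by
          simp only [hX, Matrix.mul_assoc]
          congr 3
          rw [← Matrix.mul_assoc A B, hAB, Matrix.one_mul]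
        rw [h3, Matrix.trace_mul_comm, Matrix.mul_assoc, hAB, Matrix.mul_one]
      rw [h2, Matrix.trace]
      refine Finset.sum_congr rfl fun i _ => ?_
      rw [Matrix.diag_apply, Matrix.mul_apply]
      refine Finset.sum_congr rfl fun j _ => ?_
      rw [hW, Matrix.diagonal_mul, Matrix.diagonal_mul]
      have h4 : M p j i = M p i j := by
        simp only [hM]; exact Finset.sum_congr rfl fun f _ => by rw [hs]
      rw [h4]; ring
    simp_rw [h1]
    have h5 : ∀ i j, ∑ a, ∑ b, τ a b * T a i j * T b i j = ∑ p, (M p i j) ^ 2 := by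
      intro i j
      have h6 : ∀ p, (M p i j) ^ 2 = ∑ a, ∑ b, (B p a * B p b) * (T a i j * T b i j) := by
        intro p
        rw [pow_two]
        simp only [hM]
        rw [Finset.sum_mul_sum]
        refine Finset.sum_congr rfl fun a _ => Finset.sum_congr rfl fun b _ => by ring
      simp_rw [h6]
      calc ∑ a, ∑ b, τ a b * T a i j * T b i j
          = ∑ a, ∑ b, ∑ p, (B p a * B p b) * (T a i j * T b i j) := by
            refine Finset.sum_congr rfl fun a _ => Finset.sum_congr rfl fun b _ => ?_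
            rw [← Finset.sum_mul, ← hτB]; ring
        _ = ∑ a, ∑ p, ∑ b, (B p a * B p b) * (T a i j * T b i j) :=
            Finset.sum_congr rfl fun a _ => Finset.sum_comm
        _ = ∑ p, ∑ a, ∑ b, (B p a * B p b) * (T a i j * T b i j) := Finset.sum_comm
    simp_rw [h5]
    have h7 : ∀ i j, w i * w j * ∑ p, (M p i j) ^ 2 = ∑ p, w i * w j * (M p i j) ^ 2 := by
      intro i j; rw [Finset.mul_sum]
    simp_rw [h7]
    calc ∑ i, ∑ j, ∑ p, w i * w j * (M p i j) ^ 2 = ∑ i, ∑ p, ∑ j, w i * w j * (M p i j) ^ 2 :=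
          Finset.sum_congr rfl fun i _ => Finset.sum_comm
      _ = ∑ p, ∑ i, ∑ j, w i * w j * (M p i j) ^ 2 := Finset.sum_comm
  have hN2 : ∑ a, ∑ i, w a * w i * τ a i * (∑ b, ∑ c, T c a b * T b i c) = ∑ p, ((X p)ᵀ * X p).trace := by
    have h1 : ∀ a i, ∑ b, ∑ c, T c a b * T b i c = ∑ p, ∑ q, Q p a q * Q p i q := by
      intro a i
      have h2 : ∀ p q, Q p a q * Q p i q = ∑ b, ∑ c, (A c p * M p a b) * (A b q * M q i c) := by
        intro p q
        rw [hQs p i q]
        simp only [hQ, Matrix.mul_apply]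
        rw [Finset.sum_mul_sum]
        refine Finset.sum_congr rfl fun b _ => Finset.sum_congr rfl fun c _ => by ring
      simp_rw [h2]
      have h3 : ∀ b c, T c a b * T b i c = ∑ p, ∑ q, (A c p * M p a b) * (A b q * M q i c) := by
        intro b c
        rw [hTM c a b, hTM b i c, Finset.sum_mul_sum]
      simp_rw [h3]
      calc ∑ b, ∑ c, ∑ p, ∑ q, (A c p * M p a b) * (A b q * M q i c)
          = ∑ b, ∑ p, ∑ q, ∑ c, (A c p * M p a b) * (A b q * M q i c) := by
            refine Finset.sum_congr rfl fun b _ => ?_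
            rw [Finset.sum_comm]
            refine Finset.sum_congr rfl fun p _ => ?_
            rw [Finset.sum_comm]
        _ = ∑ p, ∑ q, ∑ b, ∑ c, (A c p * M p a b) * (A b q * M q i c) := by
            rw [Finset.sum_comm]
            refine Finset.sum_congr rfl fun p _ => ?_
            rw [Finset.sum_comm]
    have h4 : ∀ p, ((X p)ᵀ * X p).trace = ∑ q, ∑ a, ∑ i, w a * w i * τ a i * (Q p a q * Q p i q) := by
      intro p
      rw [Matrix.trace]
      refine Finset.sum_congr rfl fun q _ => ?_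
      rw [Matrix.diag_apply, Matrix.mul_apply]
      have h5 : ∀ m, X p m q = ∑ a, B m a * w a * Q p a q := by
        intro m
        simp only [hX, hQ]
        rw [Matrix.mul_assoc, Matrix.mul_apply]
        refine Finset.sum_congr rfl fun a _ => ?_
        rw [hW, Matrix.mul_diagonal]
      simp_rw [Matrix.transpose_apply, h5]
      have h6 : ∀ m, (∑ a, B m a * w a * Q p a q) * (∑ i, B m i * w i * Q p i q) =
          ∑ a, ∑ i, (B m a * B m i) * (w a * w i * (Q p a q * Q p i q)) := by
        intro m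
        rw [Finset.sum_mul_sum]
        refine Finset.sum_congr rfl fun a _ => Finset.sum_congr rfl fun i _ => by ring
      simp_rw [h6]
      rw [Finset.sum_comm]
      refine Finset.sum_congr rfl fun a _ => ?_
      rw [Finset.sum_comm]
      refine Finset.sum_congr rfl fun i _ => ?_
      rw [← Finset.sum_mul, ← hτB]; ring
    simp_rw [h4, h1]
    calc ∑ a, ∑ i, w a * w i * τ a i * (∑ p, ∑ q, Q p a q * Q p i q)
        = ∑ a, ∑ i, ∑ p, ∑ q, w a * w i * τ a i * (Q p a q * Q p i q) := by
          refine Finset.sum_congr rfl fun a _ => Finset.sum_congr rfl fun i _ => ?_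
          simp only [Finset.mul_sum]
      _ = ∑ a, ∑ p, ∑ q, ∑ i, w a * w i * τ a i * (Q p a q * Q p i q) := by
          refine Finset.sum_congr rfl fun a _ => ?_
          rw [Finset.sum_comm]
          refine Finset.sum_congr rfl fun p _ => ?_
          rw [Finset.sum_comm]
      _ = ∑ p, ∑ q, ∑ a, ∑ i, w a * w i * τ a i * (Q p a q * Q p i q) := by
          rw [Finset.sum_comm]
          refine Finset.sum_congr rfl fun p _ => ?_
          rw [Finset.sum_comm]
  rw [hN1, hN2]
  refine Finset.sum_le_sum fun p _ => ?_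
  have h7 : 0 ≤ ((X p - (X p)ᵀ)ᵀ * (X p - (X p)ᵀ)).trace := by
    rw [Matrix.trace]
    refine Finset.sum_nonneg fun i _ => ?_
    rw [Matrix.diag_apply, Matrix.mul_apply]
    exact Finset.sum_nonneg fun j _ => by rw [Matrix.transpose_apply]; exact mul_self_nonneg _
  have h8 : ((X p - (X p)ᵀ)ᵀ * (X p - (X p)ᵀ)).trace = 2 * ((X p)ᵀ * X p).trace - 2 * (X p * X p).trace := by
    rw [Matrix.transpose_sub, Matrix.transpose_transpose, Matrix.sub_mul, Matrix.mul_sub, Matrix.mul_sub]
    simp only [Matrix.trace_sub]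
    have h9 : ((X p)ᵀ * (X p)ᵀ).trace = (X p * X p).trace := by
      rw [← Matrix.transpose_mul, Matrix.trace_transpose]
    have h10 : (X p * (X p)ᵀ).trace = ((X p)ᵀ * X p).trace := Matrix.trace_mul_comm _ _
    rw [h9, h10]; ring
  linarith

end Vale.Agent.P254.St47
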