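import Vale.Agent.P227.M.Bas
import Vale.Agent.P227.M.ID.Swap414
import Vale.Agent.P227.M.LIN.H1Cut
import Vale.Agent.P254.St47.Pt

/-! P254 stage 3, block N2/S2 (static inequality), the integrated identity (helper47).
Everything is stated for an abstract bounded Lipschitz field `t` of positive definite matrices with
(ST) `∑_b (V_b t_ab - ∂_b t_ab) = x_a` a.e. and (SY) `∑_e t_ae ∂_e t_bk` symmetric in `a b` a.e. -/

open MeasureTheory Filter Finset
open scoped Topology

namespace Vale.Agent.P254.St47

open Vale.Agent.P227.M Vale.Agent.P227.M.Sw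

variable {n : ℕ}

structure SD (V : E n → ℝ) (t : E n → Matrix (Fin n) (Fin n) ℝ) (A K : ℝ) : Prop where
  bd : ∀ x i j, |t x i j| ≤ A
  lip : ∀ i j x y, |t x i j - t y i j| ≤ K * ‖x - y‖
  pos : ∀ x, (t x).PosDef
  ST : ∀ᵐ x : E n, ∀ a, ∑ b, (pd b V x * t x a b - pd b (fun y => t y a b) x) = x a
  SY : ∀ᵐ x : E n, ∀ a b k, ∑ e, t x a e * pd e (fun y => t y b k) x = ∑ e, t x b e * pd e (fun y => t y a k) x

variable {V : E n → ℝ} {t : E n → Matrix (Fin n) (Fin n) ℝ} {A K : ℝ}

lemma SD.symm (h : SD V t A K) (x : E n) (i j : Fin n) : t x i j = t x j i := by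
  have h1 := (h.pos x).isHermitian
  have h2 := congrFun (congrFun h1 j) i
  simpa using h2

lemma SD.ll (h : SD V t A K) (i j : Fin n) : LL (fun x => t x i j) :=
  LL.mk' fun _ => ⟨K, fun x _ y _ => h.lip i j x y⟩

lemma SD.pd_le (h : SD V t A K) (i j e : Fin n) (x : E n) : |pd e (fun y => t y i j) x| ≤ |K| := by
  have h1 : LipschitzWith (Real.toNNReal |K|) (fun y => t y i j) := by
    refine LipschitzWith.of_dist_le_mul fun x y => ?_
    rw [Real.dist_eq, dist_eq_norm, Real.coe_toNNReal _ (abs_nonneg _)]
    exact (h.lip i j x y).trans (mul_le_mul_of_nonneg_right (le_abs_self _) (norm_nonneg _))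
  have h2 := norm_fderiv_le_of_lipschitz ℝ h1 (x₀ := x)
  rw [Real.coe_toNNReal _ (abs_nonneg _)] at h2
  exact (abs_pd_le_norm _ x e).trans h2

lemma ll_coord (a : Fin n) : LL (fun x : E n => x a) :=
  LL.of_c1 (EuclideanSpace.proj a : E n →L[ℝ] ℝ).contDiff

lemma pd_coord' (c a : Fin n) (x : E n) : pd c (fun y : E n => y a) x = if c = a then 1 else 0 := by
  have h : HasFDerivAt (fun y : E n => y a) (EuclideanSpace.proj a : E n →L[ℝ] ℝ) x :=
    (EuclideanSpace.proj a : E n →L[ℝ] ℝ).hasFDerivAt
  unfold pd
  rw [h.fderiv]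
  simp [ei, Pi.single_apply, eq_comm]

lemma ll_sum {ι : Type*} (s : Finset ι) {f : ι → E n → ℝ} (hf : ∀ i, LL (f i)) : LL (fun x => ∑ i ∈ s, f i x) := by
  classical
  induction s using Finset.induction_on with
  | empty => simpa using LL.const (n := n) 0
  | insert a s ha ih =>
    simp only [Finset.sum_insert ha]
    exact (hf a).add ih

/-- the identity (*) with a compactly supported locally Lipschitz `g` -/
theorem star {c C : ℝ} (hV : Reg V c C) (h : SD V t A K) {g : E n → ℝ} (hg : LL g) (hgs : BS g) (a i : Fin n) :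
    ∫ x, t x i a * g x * Real.exp (-V x) =
      ∫ x, (∑ b, ∑ k, (pd k (fun y => t y a b) x * pd b (fun y => t y i k) x * g x
        + t x b k * pd k (fun y => t y i a) x * pd b g x
        + hess V x k b * t x a b * t x i k * g x)) * Real.exp (-V x) := by
  have hV2 := hV.C2
  have hw := LL.exp_neg hV2
  have hQ : ∀ k, LL (fun x => t x i k * g x) := fun k => (h.ll i k).mul hg
  have hQs : ∀ k, BS (fun x => t x i k * g x) := fun k => hgs.mul_left
  have hVL : ∀ k, LL (pd k V) := fun k => LL.of_c1 (pd_c1 hV2 k)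
  -- left side of the sum of swaps
  have hint1 : ∀ b k, Integrable (fun x => (pd b V x * t x a b - pd b (fun y => t y a b) x) *
      (pd k V x * (t x i k * g x) - pd k (fun x => t x i k * g x) x) * Real.exp (-V x)) := by
    intro b k
    refine LB.integrable ((((hVL b).mul (h.ll a b)).lb.sub ((h.ll a b).pd_lb b)).mul
      (((hVL k).mul (hQ k)).lb.sub ((hQ k).pd_lb k)) |>.mul hw.lb) ?_
    exact (((hQs k).mul_left.sub ((hQs k).pd k)).mul_left).mul_right
  have hint2 : ∀ b k, Integrable (fun x => (pd k (fun y => t y a b) x * pd b (fun x => t x i k * g x) x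
      + hess V x k b * t x a b * (t x i k * g x)) * Real.exp (-V x)) := by
    intro b k
    have hH : LB (fun x => hess V x k b) := LB.of_cont (continuous_hess hV2 k b)
    refine LB.integrable (((((h.ll a b).pd_lb k).mul ((hQ k).pd_lb b)).add
      ((hH.mul (h.ll a b).lb).mul (hQ k).lb)).mul hw.lb) ?_
    exact ((((hQs k).pd b).mul_left).add ((hQs k).mul_left)).mul_right
  have hsw : ∀ b k, ∫ x, (pd b V x * t x a b - pd b (fun y => t y a b) x) *
      (pd k V x * (t x i k * g x) - pd k (fun x => t x i k * g x) x) * Real.exp (-V x) =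
      ∫ x, (pd k (fun y => t y a b) x * pd b (fun x => t x i k * g x) x
      + hess V x k b * t x a b * (t x i k * g x)) * Real.exp (-V x) := fun b k =>
    swap hV2 (h.ll a b) (hQ k) (Or.inr (hQs k)) b k
  have hL : ∑ b, ∑ k, ∫ x, (pd b V x * t x a b - pd b (fun y => t y a b) x) *
      (pd k V x * (t x i k * g x) - pd k (fun x => t x i k * g x) x) * Real.exp (-V x) =
      ∫ x, t x i a * g x * Real.exp (-V x) := by
    have e1 : ∑ b, ∑ k, ∫ x, (pd b V x * t x a b - pd b (fun y => t y a b) x) *
        (pd k V x * (t x i k * g x) - pd k (fun x => t x i k * g x) x) * Real.exp (-V x) =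
        ∫ x, x a * (∑ k, (pd k V x * (t x i k * g x) - pd k (fun x => t x i k * g x) x)) * Real.exp (-V x) := by
      simp_rw [← integral_finsetSum univ (fun k _ => hint1 _ k)]
      rw [← integral_finsetSum univ (fun b _ => integrable_finsetSum univ (fun k _ => hint1 b k))]
      refine integral_congr_ae ?_
      filter_upwards [h.ST] with x hx
      rw [← hx a, Finset.sum_mul_sum, Finset.sum_mul]
      refine Finset.sum_congr rfl fun b _ => ?_
      rw [Finset.sum_mul]
    rw [e1]
    have e2 : ∀ x : E n, x a * (∑ k, (pd k V x * (t x i k * g x) - pd k (fun x => t x i k * g x) x)) * Real.exp (-V x) =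
        ∑ k, (pd k V x * (t x i k * g x) - pd k (fun x => t x i k * g x) x) * x a * Real.exp (-V x) := by
      intro x
      rw [mul_comm (x a), Finset.sum_mul, Finset.sum_mul]
    simp_rw [e2]
    rw [integral_finsetSum]
    · have e3 : ∀ k, ∫ x : E n, (pd k V x * (t x i k * g x) - pd k (fun x => t x i k * g x) x) * x a * Real.exp (-V x) =
          ∫ x, (t x i k * g x) * (if k = a then 1 else 0) * Real.exp (-V x) := by
        intro k
        rw [ibpV hV2 (hQ k) (ll_coord a) (Or.inl (hQs k)) k]
        simp_rw [pd_coord']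
      simp_rw [e3]
      rw [Finset.sum_eq_single a]
      · simp
      · intro k _ hk; simp [hk]
      · intro hh; exact absurd (Finset.mem_univ a) hh
    · intro k _
      refine LB.integrable (((((hVL k).mul (hQ k)).lb.sub ((hQ k).pd_lb k)).mul (ll_coord a).lb).mul hw.lb) ?_
      exact (((hQs k).mul_left.sub ((hQs k).pd k)).mul_right).mul_right
  rw [← hL]
  simp_rw [hsw]
  simp_rw [← integral_finsetSum univ (fun k _ => hint2 _ k)]
  rw [← integral_finsetSum univ (fun b _ => integrable_finsetSum univ (fun k _ => hint2 b k))]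
  refine integral_congr_ae ?_
  have hdiff : ∀ᵐ x : E n, ∀ k, DifferentiableAt ℝ (fun y => t y i k) x :=
    ae_all_iff.2 fun k => (h.ll i k).ae_diff
  filter_upwards [h.SY, hdiff, hg.ae_diff] with x hx hd hgd
  have e4 : ∀ b k, pd b (fun x => t x i k * g x) x = pd b (fun y => t y i k) x * g x + t x i k * pd b g x :=
    fun b k => pd_mul_at (hd k) hgd b
  simp_rw [e4, ← Finset.sum_mul]
  congr 1
  have e5 : ∀ b, ∑ k, pd k (fun y => t y a b) x * (t x i k * pd b g x) =
      ∑ k, t x b k * pd k (fun y => t y i a) x * pd b g x := by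
    intro b
    have h1 := hx i b a
    have h2 : ∀ k, pd k (fun y => t y b a) x = pd k (fun y => t y a b) x := by
      intro k; congr 1; funext y; exact h.symm y b a
    have h3 : ∑ k, pd k (fun y => t y a b) x * (t x i k * pd b g x) =
        (∑ k, t x i k * pd k (fun y => t y b a) x) * pd b g x := by
      rw [Finset.sum_mul]; refine Finset.sum_congr rfl fun k _ => ?_
      rw [h2]; ring
    rw [h3, h1, Finset.sum_mul]
  have e6 : ∀ b, ∑ k, (pd k (fun y => t y a b) x * (pd b (fun y => t y i k) x * g x + t x i k * pd b g x) +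
      hess V x k b * t x a b * (t x i k * g x)) =
      ∑ k, (pd k (fun y => t y a b) x * pd b (fun y => t y i k) x * g x
        + t x b k * pd k (fun y => t y i a) x * pd b g x
        + hess V x k b * t x a b * t x i k * g x) := by
    intro b
    have h4 := e5 b
    simp only [mul_add, Finset.sum_add_distrib]
    rw [h4]
    congr 1
    · congr 1
      exact Finset.sum_congr rfl fun k _ => by ring
    · exact Finset.sum_congr rfl fun k _ => by ring
  simp_rw [e6]

end Vale.Agent.P254.St47
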