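import Vale.Agent.P254.St47.N1

/-! P254 stage 3, block S2 (static inequality), cut-off limit and the inequality
`2 E N1 ≤ E tr(WtWt) - E tr(WtWtBt)` (helper47). -/

open MeasureTheory Filter Finset
open scoped Topology MatrixOrder

namespace Vale.Agent.P254.St47

open Vale.Agent.P227.M Vale.Agent.P227.M.Sw

variable {n : ℕ}

/-- bounded measurable -/
def BM (f : E n → ℝ) : Prop := Measurable f ∧ ∃ B : ℝ, ∀ x, |f x| ≤ B

lemma BM.mul {f g : E n → ℝ} (hf : BM f) (hg : BM g) : BM (fun x => f x * g x) := by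
  obtain ⟨B, hB⟩ := hf.2
  obtain ⟨B', hB'⟩ := hg.2
  refine ⟨hf.1.mul hg.1, B * B', fun x => ?_⟩
  rw [abs_mul]
  exact mul_le_mul (hB x) (hB' x) (abs_nonneg _) ((abs_nonneg _).trans (hB x))

lemma BM.add {f g : E n → ℝ} (hf : BM f) (hg : BM g) : BM (fun x => f x + g x) := by
  obtain ⟨B, hB⟩ := hf.2
  obtain ⟨B', hB'⟩ := hg.2
  exact ⟨hf.1.add hg.1, B + B', fun x => (abs_add_le _ _).trans (add_le_add (hB x) (hB' x))⟩

lemma BM.const (a : ℝ) : BM (fun _ : E n => a) := ⟨measurable_const, |a|, fun _ => le_rfl⟩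

lemma BM.sum {ι : Type*} (s : Finset ι) {f : ι → E n → ℝ} (hf : ∀ i, BM (f i)) : BM (fun x => ∑ i ∈ s, f i x) := by
  classical
  induction s using Finset.induction_on with
  | empty => simpa using BM.const (n := n) 0
  | insert a s ha ih =>
    simp only [Finset.sum_insert ha]
    exact (hf a).add ih

lemma BM.integrable {V : E n → ℝ} {c C : ℝ} (hV : Reg V c C) {f : E n → ℝ} (hf : BM f) :
    Integrable (fun x => f x * Real.exp (-V x)) := by
  obtain ⟨B, hB⟩ := hf.2
  refine (hV.integrable_exp.bdd_mul (c := B) hf.1.aestronglyMeasurable ?_)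
  exact Filter.Eventually.of_forall hB

variable {V : E n → ℝ} {t : E n → Matrix (Fin n) (Fin n) ℝ} {A K : ℝ}

lemma SD.bm (h : SD V t A K) (i j : Fin n) : BM (fun x => t x i j) :=
  ⟨(h.ll i j).cont.measurable, A, fun x => h.bd x i j⟩

lemma SD.bm_pd (h : SD V t A K) (i j e : Fin n) : BM (fun x => pd e (fun y => t y i j) x) :=
  ⟨((h.ll i j).pd_lb e).1, |K|, fun x => h.pd_le i j e x⟩

lemma bm_hess {c C : ℝ} (hV : Reg V c C) (i j : Fin n) : BM (fun x => hess V x i j) := by
  obtain ⟨B, hB⟩ := hV.abs_hess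
  exact ⟨(continuous_hess hV.C2 i j).measurable, B, fun x => hB x i j⟩

noncomputable def Sx (t : E n → Matrix (Fin n) (Fin n) ℝ) (w : Fin n → ℝ) (x : E n) : ℝ :=
  ∑ a, ∑ i, w a * w i * (t x a i) ^ 2

noncomputable def N1x (t : E n → Matrix (Fin n) (Fin n) ℝ) (w : Fin n → ℝ) (x : E n) : ℝ :=
  ∑ i, ∑ j, w i * w j * (∑ a, ∑ b, t x a b * pd a (fun y => t y i j) x * pd b (fun y => t y i j) x)

noncomputable def N2x (t : E n → Matrix (Fin n) (Fin n) ℝ) (w : Fin n → ℝ) (x : E n) : ℝ :=
  ∑ a, ∑ i, w a * w i * t x a i * (∑ b, ∑ k, pd k (fun y => t y a b) x * pd b (fun y => t y i k) x)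

noncomputable def Vx (V : E n → ℝ) (t : E n → Matrix (Fin n) (Fin n) ℝ) (w : Fin n → ℝ) (x : E n) : ℝ :=
  ∑ a, ∑ i, w a * w i * t x a i * (∑ b, ∑ k, hess V x k b * t x a b * t x i k)

noncomputable def Erx (t : E n → Matrix (Fin n) (Fin n) ℝ) (w : Fin n → ℝ) (χ : E n → ℝ) (x : E n) : ℝ :=
  ∑ a, ∑ i, w a * w i * t x a i * (∑ b, ∑ k, t x b k * pd k (fun y => t y i a) x * pd b χ x)

lemma SD.bm_S (h : SD V t A K) (w : Fin n → ℝ) : BM (Sx t w) := by
  refine BM.sum _ fun a => BM.sum _ fun i => ?_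
  have := (BM.const (w a * w i)).mul ((h.bm a i).mul (h.bm a i))
  simpa [pow_two] using this

lemma SD.bm_N1 (h : SD V t A K) (w : Fin n → ℝ) : BM (N1x t w) := by
  refine BM.sum _ fun i => BM.sum _ fun j => (BM.const (w i * w j)).mul ?_
  exact BM.sum _ fun a => BM.sum _ fun b => ((h.bm a b).mul (h.bm_pd i j a)).mul (h.bm_pd i j b)

lemma SD.bm_N2 (h : SD V t A K) (w : Fin n → ℝ) : BM (N2x t w) := by
  refine BM.sum _ fun a => BM.sum _ fun i => ((BM.const (w a * w i)).mul (h.bm a i)).mul ?_
  exact BM.sum _ fun b => BM.sum _ fun k => (h.bm_pd a b k).mul (h.bm_pd i k b)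

lemma SD.bm_V {c C : ℝ} (hV : Reg V c C) (h : SD V t A K) (w : Fin n → ℝ) : BM (Vx V t w) := by
  refine BM.sum _ fun a => BM.sum _ fun i => ((BM.const (w a * w i)).mul (h.bm a i)).mul ?_
  exact BM.sum _ fun b => BM.sum _ fun k => ((bm_hess hV k b).mul (h.bm a b)).mul (h.bm i k)

lemma test_bm {f : E n → ℝ} (hf : Test f) : BM f :=
  ⟨hf.1.continuous.measurable, hf.2.exists_bound_of_continuous hf.1.continuous⟩

lemma test_ll {f : E n → ℝ} (hf : Test f) : LL f := LL.of_c1 (hf.1.of_le (by exact_mod_cast le_top))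

lemma test_pd' {f : E n → ℝ} (hf : Test f) (a : Fin n) : Test (pd a f) :=
  ⟨contDiff_pd_top hf.1 a, hf.2.fderiv_apply (𝕜 := ℝ) (ei a)⟩

/-- identity with a cut-off -/
theorem ident_cut {c C : ℝ} (hV : Reg V c C) (h : SD V t A K) (w : Fin n → ℝ) {χ : E n → ℝ} (hχ : Test χ) :
    ∫ x, χ x * Sx t w x * Real.exp (-V x) =
      (∫ x, χ x * N2x t w x * Real.exp (-V x)) + (∫ x, χ x * N1x t w x * Real.exp (-V x))
        + (∫ x, χ x * Vx V t w x * Real.exp (-V x)) + ∫ x, Erx t w χ x * Real.exp (-V x) := by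
  have hχL := test_ll hχ
  have hχS : BS χ := BS.of_hcs hχ.2
  have hg : ∀ a i, LL (fun x => χ x * (w a * w i * t x a i)) := fun a i =>
    hχL.mul ((LL.const (w a * w i)).mul (h.ll a i))
  have hgs : ∀ a i, BS (fun x => χ x * (w a * w i * t x a i)) := fun a i => hχS.mul_right
  have hst := fun a i => star hV h (hg a i) (hgs a i) a i
  have hχb := test_bm hχ
  -- left side
  have hl : ∀ a i, Integrable (fun x => t x i a * (χ x * (w a * w i * t x a i)) * Real.exp (-V x)) := fun a i =>
    BM.integrable hV ((h.bm i a).mul (hχb.mul ((BM.const (w a * w i)).mul (h.bm a i))))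
  have e1 : ∫ x, χ x * Sx t w x * Real.exp (-V x) =
      ∑ a, ∑ i, ∫ x, t x i a * (χ x * (w a * w i * t x a i)) * Real.exp (-V x) := by
    simp_rw [← integral_finsetSum univ (fun i _ => hl _ i)]
    rw [← integral_finsetSum univ (fun a _ => integrable_finsetSum univ (fun i _ => hl a i))]
    refine integral_congr_ae (Filter.Eventually.of_forall fun x => ?_)
    simp only [Sx, Finset.mul_sum, Finset.sum_mul]
    refine Finset.sum_congr rfl fun a _ => Finset.sum_congr rfl fun i _ => ?_
    rw [h.symm x i a]; ring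
  rw [e1]
  simp_rw [hst]
  -- right side
  have hpg : ∀ a i b, BM (fun x => pd b (fun x => χ x * (w a * w i * t x a i)) x) := by
    intro a i b
    obtain ⟨K', hK'⟩ := (hg a i).lip (hgs a i)
    refine ⟨((hg a i).pd_lb b).1, K', fun x => ?_⟩
    exact (abs_pd_le_norm _ x b).trans (norm_fderiv_le_of_lipschitz ℝ hK')
  have hr : ∀ a i, Integrable (fun x => (∑ b, ∑ k, (pd k (fun y => t y a b) x * pd b (fun y => t y i k) x * (χ x * (w a * w i * t x a i))
        + t x b k * pd k (fun y => t y i a) x * pd b (fun x => χ x * (w a * w i * t x a i)) x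
        + hess V x k b * t x a b * t x i k * (χ x * (w a * w i * t x a i)))) * Real.exp (-V x)) := by
    intro a i
    have hgb : BM (fun x => χ x * (w a * w i * t x a i)) := hχb.mul ((BM.const (w a * w i)).mul (h.bm a i))
    refine BM.integrable hV ?_
    refine BM.sum _ fun b => BM.sum _ fun k => ?_
    exact ((((h.bm_pd a b k).mul (h.bm_pd i k b)).mul hgb).add (((h.bm b k).mul (h.bm_pd i a k)).mul (hpg a i b))).add
      ((((bm_hess hV k b).mul (h.bm a b)).mul (h.bm i k)).mul hgb)
  simp_rw [← integral_finsetSum univ (fun i _ => hr _ i)]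
  rw [← integral_finsetSum univ (fun a _ => integrable_finsetSum univ (fun i _ => hr a i))]
  have i1 : Integrable (fun x => χ x * N2x t w x * Real.exp (-V x)) := BM.integrable hV (hχb.mul (h.bm_N2 w))
  have i2 : Integrable (fun x => χ x * N1x t w x * Real.exp (-V x)) := BM.integrable hV (hχb.mul (h.bm_N1 w))
  have i3 : Integrable (fun x => χ x * Vx V t w x * Real.exp (-V x)) := BM.integrable hV (hχb.mul (h.bm_V hV w))
  have i4 : Integrable (fun x => Erx t w χ x * Real.exp (-V x)) := by
    refine BM.integrable hV ?_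
    refine BM.sum _ fun a => BM.sum _ fun i => ((BM.const (w a * w i)).mul (h.bm a i)).mul ?_
    exact BM.sum _ fun b => BM.sum _ fun k => ((h.bm b k).mul (h.bm_pd i a k)).mul (test_bm (test_pd' hχ b))
  have s1 : ∫ x, (χ x * N2x t w x * Real.exp (-V x) + χ x * N1x t w x * Real.exp (-V x)) = _ := integral_add i1 i2
  have s2 : ∫ x, (χ x * N2x t w x * Real.exp (-V x) + χ x * N1x t w x * Real.exp (-V x)
      + χ x * Vx V t w x * Real.exp (-V x)) = _ := integral_add (i1.add i2) i3
  have s3 : ∫ x, (χ x * N2x t w x * Real.exp (-V x) + χ x * N1x t w x * Real.exp (-V x)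
      + χ x * Vx V t w x * Real.exp (-V x) + Erx t w χ x * Real.exp (-V x)) = _ := integral_add ((i1.add i2).add i3) i4
  rw [← s1]
  refine Eq.trans ?_ (s3.trans (congrArg₂ (· + ·) s2 rfl))
  refine integral_congr_ae ?_
  have hdiff : ∀ᵐ x : E n, ∀ i k, DifferentiableAt ℝ (fun y => t y i k) x :=
    ae_all_iff.2 fun i => ae_all_iff.2 fun k => (h.ll i k).ae_diff
  filter_upwards [hdiff] with x hd
  have hχd : DifferentiableAt ℝ χ x := hχ.1.differentiable (by simp) x
  have e4 : ∀ a i b, pd b (fun x => χ x * (w a * w i * t x a i)) x =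
      pd b χ x * (w a * w i * t x a i) + χ x * (w a * w i * pd b (fun y => t y a i) x) := by
    intro a i b
    have d1 : DifferentiableAt ℝ (fun y => w a * w i * t y a i) x := (hd a i).const_mul (w a * w i)
    rw [pd_mul_at (f := χ) (g := fun y => w a * w i * t y a i) hχd d1 b,
      pd_mul_at (f := fun _ => w a * w i) (g := fun y => t y a i) (differentiableAt_const _) (hd a i) b]
    have : pd b (fun _ : E n => w a * w i) x = 0 := by simp [pd]
    rw [this]; ring
  have key : ∀ a i, (∑ b, ∑ k, (pd k (fun y => t y a b) x * pd b (fun y => t y i k) x * (χ x * (w a * w i * t x a i))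
        + t x b k * pd k (fun y => t y i a) x * pd b (fun x => χ x * (w a * w i * t x a i)) x
        + hess V x k b * t x a b * t x i k * (χ x * (w a * w i * t x a i)))) =
      χ x * (w a * w i * t x a i * (∑ b, ∑ k, pd k (fun y => t y a b) x * pd b (fun y => t y i k) x))
      + χ x * (w a * w i * (∑ p, ∑ q, t x p q * pd p (fun y => t y a i) x * pd q (fun y => t y a i) x))
      + χ x * (w a * w i * t x a i * (∑ b, ∑ k, hess V x k b * t x a b * t x i k))
      + w a * w i * t x a i * (∑ b, ∑ k, t x b k * pd k (fun y => t y i a) x * pd b χ x) := by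
    intro a i
    have : (fun y => t y i a) = (fun y => t y a i) := by funext y; exact h.symm y i a
    simp only [e4, Finset.mul_sum, ← Finset.sum_add_distrib]
    refine Finset.sum_congr rfl fun b _ => Finset.sum_congr rfl fun k _ => ?_
    rw [this]; ring
  have key2 : ∑ a, ∑ i, (∑ b, ∑ k, (pd k (fun y => t y a b) x * pd b (fun y => t y i k) x * (χ x * (w a * w i * t x a i))
        + t x b k * pd k (fun y => t y i a) x * pd b (fun x => χ x * (w a * w i * t x a i)) x
        + hess V x k b * t x a b * t x i k * (χ x * (w a * w i * t x a i)))) =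
      χ x * N2x t w x + χ x * N1x t w x + χ x * Vx V t w x + Erx t w χ x := by
    simp_rw [key]
    unfold N1x N2x Vx Erx
    simp only [Finset.sum_add_distrib, Finset.mul_sum]
  have key3 : ∀ F : Fin n → Fin n → ℝ, ∑ a, ∑ i, F a i * Real.exp (-V x) = (∑ a, ∑ i, F a i) * Real.exp (-V x) := by
    intro F
    rw [Finset.sum_mul]
    exact Finset.sum_congr rfl fun a _ => (Finset.sum_mul _ _ _).symm
  calc _ = (∑ a, ∑ i, (∑ b, ∑ k, (pd k (fun y => t y a b) x * pd b (fun y => t y i k) x * (χ x * (w a * w i * t x a i))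
        + t x b k * pd k (fun y => t y i a) x * pd b (fun x => χ x * (w a * w i * t x a i)) x
        + hess V x k b * t x a b * t x i k * (χ x * (w a * w i * t x a i))))) * Real.exp (-V x) := key3 _
    _ = _ := by rw [key2]; ring

/-- exact integrated identity -/
theorem ident {c C : ℝ} (hV : Reg V c C) (h : SD V t A K) (w : Fin n → ℝ) :
    ∫ x, Sx t w x * Real.exp (-V x) =
      (∫ x, N2x t w x * Real.exp (-V x)) + (∫ x, N1x t w x * Real.exp (-V x))
        + (∫ x, Vx V t w x * Real.exp (-V x)) := by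
  obtain ⟨C3, hC3, hcut⟩ := LIN.cutoff n
  choose! χ hχ using hcut
  have hR : ∀ m : ℕ, (1 : ℝ) ≤ (m : ℝ) + 1 := fun m => by
    have : (0 : ℝ) ≤ m := Nat.cast_nonneg m
    linarith
  set X : ℕ → E n → ℝ := fun m => χ ((m : ℝ) + 1) with hX
  have hXT : ∀ m, Test (X m) := fun m => (hχ _ (hR m)).1
  have hX1 : ∀ (m : ℕ) (x : E n), |X m x| ≤ 1 := fun m => (hχ _ (hR m)).2.1
  have hXe : ∀ (m : ℕ) (x : E n), ‖x‖ < (m : ℝ) + 1 → X m x = 1 := fun m => (hχ _ (hR m)).2.2.1
  have hXp : ∀ (m : ℕ) (x : E n) (a : Fin n), |pd a (X m) x| ≤ C3 := fun m x a => ((hχ _ (hR m)).2.2.2.2.1 x a).1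
  have hev : ∀ x : E n, ∀ᶠ m : ℕ in atTop, X m x = 1 ∧ ∀ b, pd b (X m) x = 0 := by
    intro x
    obtain ⟨m0, hm0⟩ := exists_nat_gt ‖x‖
    filter_upwards [eventually_ge_atTop m0] with m hm
    have h1 : ‖x‖ < (m : ℝ) + 1 := by
      have : (m0 : ℝ) ≤ m := by exact_mod_cast hm
      linarith
    refine ⟨hXe m x h1, fun b => ?_⟩
    have h2 : X m =ᶠ[𝓝 x] fun _ => (1 : ℝ) := by
      have : ∀ᶠ y in 𝓝 x, ‖y‖ < (m : ℝ) + 1 := (continuous_norm.tendsto x).eventually_lt_const h1
      filter_upwards [this] with y hy using hXe m y hy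
    unfold pd
    rw [h2.fderiv_eq]; simp
  have hlim : ∀ f : E n → ℝ, BM f → Tendsto (fun m => ∫ x, X m x * f x * Real.exp (-V x)) atTop
      (𝓝 (∫ x, f x * Real.exp (-V x))) := by
    intro f hf
    refine tendsto_integral_of_dominated_convergence (fun x => |f x * Real.exp (-V x)|) ?_ ?_ ?_ ?_
    · intro m; exact (BM.integrable hV ((test_bm (hXT m)).mul hf)).aestronglyMeasurable
    · exact (BM.integrable hV hf).abs
    · intro m; refine Filter.Eventually.of_forall fun x => ?_
      rw [Real.norm_eq_abs, mul_assoc, abs_mul]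
      exact mul_le_of_le_one_left (abs_nonneg _) (hX1 m x)
    · refine Filter.Eventually.of_forall fun x => ?_
      refine tendsto_const_nhds.congr' ?_
      filter_upwards [hev x] with m hm
      rw [hm.1, one_mul]
  have hEr : Tendsto (fun m => ∫ x, Erx t w (X m) x * Real.exp (-V x)) atTop (𝓝 0) := by
    have hb : ∃ B : ℝ, 0 ≤ B ∧ ∀ m x, |Erx t w (X m) x| ≤ B := by
      have hA : 0 ≤ |A| := abs_nonneg _
      refine ⟨∑ a, ∑ i, |w a * w i| * |A| * (∑ _b : Fin n, ∑ _k : Fin n, |A| * |K| * C3), ?_, fun m x => ?_⟩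
      · refine Finset.sum_nonneg fun a _ => Finset.sum_nonneg fun i _ => mul_nonneg (by positivity) ?_
        exact Finset.sum_nonneg fun b _ => Finset.sum_nonneg fun k _ => by positivity
      · unfold Erx
        refine (Finset.abs_sum_le_sum_abs _ _).trans (Finset.sum_le_sum fun a _ => ?_)
        refine (Finset.abs_sum_le_sum_abs _ _).trans (Finset.sum_le_sum fun i _ => ?_)
        rw [abs_mul, abs_mul]
        refine mul_le_mul (mul_le_mul_of_nonneg_left ((h.bd x a i).trans (le_abs_self _)) (abs_nonneg _)) ?_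
          (abs_nonneg _) (by positivity)
        refine (Finset.abs_sum_le_sum_abs _ _).trans (Finset.sum_le_sum fun b _ => ?_)
        refine (Finset.abs_sum_le_sum_abs _ _).trans (Finset.sum_le_sum fun k _ => ?_)
        rw [abs_mul, abs_mul]
        exact mul_le_mul (mul_le_mul ((h.bd x b k).trans (le_abs_self _)) (h.pd_le i a k x) (abs_nonneg _) hA)
          (hXp m x b) (abs_nonneg _) (by positivity)
    obtain ⟨B, hB0, hB⟩ := hb
    have hz : (0 : ℝ) = ∫ x : E n, (0 : ℝ) := by simp
    rw [hz]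
    refine tendsto_integral_of_dominated_convergence (fun x => B * Real.exp (-V x)) ?_ ?_ ?_ ?_
    · intro m
      refine (BM.integrable hV ?_).aestronglyMeasurable
      refine BM.sum _ fun a => BM.sum _ fun i => ((BM.const (w a * w i)).mul (h.bm a i)).mul ?_
      exact BM.sum _ fun b => BM.sum _ fun k => ((h.bm b k).mul (h.bm_pd i a k)).mul (test_bm (test_pd' (hXT m) b))
    · exact hV.integrable_exp.const_mul B
    · intro m; refine Filter.Eventually.of_forall fun x => ?_
      rw [Real.norm_eq_abs, abs_mul, Real.abs_exp]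
      exact mul_le_mul_of_nonneg_right (hB m x) (Real.exp_pos _).le
    · refine Filter.Eventually.of_forall fun x => ?_
      refine tendsto_const_nhds.congr' ?_
      filter_upwards [hev x] with m hm
      unfold Erx
      simp [hm.2]
  have h1 := hlim _ (h.bm_S w)
  have h2 := (((hlim _ (h.bm_N2 w)).add (hlim _ (h.bm_N1 w))).add (hlim _ (h.bm_V hV w))).add hEr
  rw [add_zero] at h2
  refine tendsto_nhds_unique h1 (h2.congr fun m => ?_)
  exact (ident_cut hV h w (hXT m)).symm

/-- `2 E N1 ≤ E tr(WtWt) - E tr(WtWtV''t)` -/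
theorem two_N1_le {c C : ℝ} (hV : Reg V c C) (h : SD V t A K) (w : Fin n → ℝ) :
    2 * ∫ x, N1x t w x * Real.exp (-V x) ≤
      (∫ x, Sx t w x * Real.exp (-V x)) - ∫ x, Vx V t w x * Real.exp (-V x) := by
  have h1 := ident hV h w
  have h2 : ∫ x, N1x t w x * Real.exp (-V x) ≤ ∫ x, N2x t w x * Real.exp (-V x) := by
    refine integral_mono_ae (BM.integrable hV (h.bm_N1 w)) (BM.integrable hV (h.bm_N2 w)) ?_
    filter_upwards [h.SY] with x hx
    refine mul_le_mul_of_nonneg_right ?_ (Real.exp_pos _).le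
    exact pointwise (h.pos x) (fun c a b => pd c (fun y => t y a b) x)
      (fun c a b => by
        have : (fun y => t y a b) = (fun y => t y b a) := by funext y; exact h.symm y a b
        rw [this])
      (fun a b c => hx a b c) w
  linarith

/-- lower bound of the Hessian term -/
theorem Vx_ge {b : Fin n → ℝ} {x : E n} (ht : (t x).PosDef) (hb : ∀ v : E n, ∑ i, b i * v i ^ 2 ≤ qf (hess V x) v)
    (w : Fin n → ℝ) :
    ∑ a, ∑ i, w a * w i * t x a i * (∑ k, b k * t x a k * t x i k) ≤ Vx V t w x := by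
  obtain ⟨B, hB⟩ := CStarAlgebra.nonneg_iff_eq_star_mul_self.1 ht.posSemidef.nonneg
  rw [Matrix.star_eq_conjTranspose] at hB
  have hτB : ∀ a b, t x a b = ∑ m, B m a * B m b := by
    intro a b; rw [hB, Matrix.mul_apply]; simp
  set u : Fin n → E n := fun m => WithLp.toLp 2 (fun k => ∑ a, w a * B m a * t x a k) with hu
  have hu' : ∀ m k, u m k = ∑ a, w a * B m a * t x a k := fun m k => rfl
  have e1 : ∀ F : Fin n → Fin n → ℝ, ∑ a, ∑ i, w a * w i * t x a i * (∑ b, ∑ k, F k b * t x a b * t x i k) =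
      ∑ m, ∑ k, ∑ b, F k b * u m k * u m b := by
    intro F
    have e2 : ∀ m k b, F k b * u m k * u m b = ∑ a, ∑ i, (B m a * B m i) * (w a * w i * (F k b * t x a b * t x i k)) := by
      intro m k b
      rw [hu', hu', mul_assoc, mul_comm (∑ a, w a * B m a * t x a k), Finset.sum_mul_sum, Finset.mul_sum]
      refine Finset.sum_congr rfl fun a _ => ?_
      rw [Finset.mul_sum]
      refine Finset.sum_congr rfl fun i _ => by ring
    simp_rw [e2]
    calc ∑ a, ∑ i, w a * w i * t x a i * (∑ b, ∑ k, F k b * t x a b * t x i k)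
        = ∑ a, ∑ i, ∑ m, ∑ k, ∑ b, (B m a * B m i) * (w a * w i * (F k b * t x a b * t x i k)) := by
          refine Finset.sum_congr rfl fun a _ => Finset.sum_congr rfl fun i _ => ?_
          rw [hτB a i]
          rw [Finset.sum_comm (s := univ) (t := univ) (f := fun b k => F k b * t x a b * t x i k)]
          simp only [Finset.mul_sum, Finset.sum_mul]
          have : ∀ k b, ∑ m, w a * w i * (B m a * B m i) * (F k b * t x a b * t x i k) =
              ∑ m, (B m a * B m i) * (w a * w i * (F k b * t x a b * t x i k)) := fun k b =>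
            Finset.sum_congr rfl fun m _ => by ring
          simp_rw [this]
          calc ∑ k, ∑ b, ∑ m, (B m a * B m i) * (w a * w i * (F k b * t x a b * t x i k))
              = ∑ k, ∑ m, ∑ b, (B m a * B m i) * (w a * w i * (F k b * t x a b * t x i k)) :=
                Finset.sum_congr rfl fun k _ => Finset.sum_comm
            _ = _ := Finset.sum_comm
      _ = ∑ a, ∑ m, ∑ k, ∑ b, ∑ i, (B m a * B m i) * (w a * w i * (F k b * t x a b * t x i k)) := by
          refine Finset.sum_congr rfl fun a _ => ?_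
          rw [Finset.sum_comm]
          refine Finset.sum_congr rfl fun m _ => ?_
          rw [Finset.sum_comm]
          refine Finset.sum_congr rfl fun k _ => Finset.sum_comm
      _ = ∑ m, ∑ k, ∑ b, ∑ a, ∑ i, (B m a * B m i) * (w a * w i * (F k b * t x a b * t x i k)) := by
          rw [Finset.sum_comm]
          refine Finset.sum_congr rfl fun m _ => ?_
          rw [Finset.sum_comm]
          refine Finset.sum_congr rfl fun k _ => Finset.sum_comm
  have e3 : ∑ a, ∑ i, w a * w i * t x a i * (∑ k, b k * t x a k * t x i k) =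
      ∑ m, ∑ k, b k * u m k ^ 2 := by
    have h1 := e1 (fun k l => if k = l then b k else 0)
    have h2 : ∀ a i, ∑ l, ∑ k, (if k = l then b k else 0) * t x a l * t x i k = ∑ k, b k * t x a k * t x i k := by
      intro a i
      refine Finset.sum_congr rfl fun l _ => ?_
      rw [Finset.sum_eq_single l]
      · simp
      · intro k _ hk; simp [hk]
      · intro hh; exact absurd (Finset.mem_univ l) hh
    have h3 : ∀ m, ∑ k, ∑ l, (if k = l then b k else 0) * u m k * u m l = ∑ k, b k * u m k ^ 2 := by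
      intro m
      refine Finset.sum_congr rfl fun k _ => ?_
      rw [Finset.sum_eq_single k]
      · simp; ring
      · intro l _ hl; simp [Ne.symm hl]
      · intro hh; exact absurd (Finset.mem_univ k) hh
    simp_rw [h2, h3] at h1
    exact h1
  rw [e3]
  have e4 := e1 (fun k l => hess V x k l)
  unfold Vx
  rw [e4]
  refine Finset.sum_le_sum fun m _ => ?_
  have := hb (u m)
  unfold qf at this
  exact this

/-- **result of the block**: `2 E N1 ≤ E tr(WtWt) - E tr(WtWtBt)` -/
theorem two_N1_le_B {c C : ℝ} (hV : Reg V c C) (h : SD V t A K) {b : Fin n → ℝ}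
    (hb : ∀ x v : E n, ∑ i, b i * v i ^ 2 ≤ qf (hess V x) v) (w : Fin n → ℝ) :
    2 * ∫ x, N1x t w x * Real.exp (-V x) ≤
      (∫ x, Sx t w x * Real.exp (-V x)) -
        ∫ x, (∑ a, ∑ i, w a * w i * t x a i * (∑ k, b k * t x a k * t x i k)) * Real.exp (-V x) := by
  have h1 := two_N1_le hV h w
  have h2 : ∫ x, (∑ a, ∑ i, w a * w i * t x a i * (∑ k, b k * t x a k * t x i k)) * Real.exp (-V x) ≤
      ∫ x, Vx V t w x * Real.exp (-V x) := by
    refine integral_mono (BM.integrable hV ?_) (BM.integrable hV (h.bm_V hV w)) fun x => ?_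
    · refine BM.sum _ fun a => BM.sum _ fun i => ((BM.const (w a * w i)).mul (h.bm a i)).mul ?_
      exact BM.sum _ fun k => ((BM.const (b k)).mul (h.bm a k)).mul (h.bm i k)
    · exact mul_le_mul_of_nonneg_right (Vx_ge (h.pos x) (hb x) w) (Real.exp_pos _).le
  linarith

end Vale.Agent.P254.St47
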